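import Vale.Agent.P011.D4X.H369.AutI
import Vale.Agent.P011N.D1.FixI
import Vale.Agent.P011N.D1.D4X.Defs

/-!
Version for big subgroups of `P011.D4X.H369.AutI`.
-/

open NumberField Topology

namespace Vale.Agent.P011.D4X.H369

open Vale.Agent.P011.MPQ Vale.Agent.P011.D4 Vale.Agent.P011.D4.Oct Vale.Agent.P011.D4.Em

open Vale.Agent.P011.D4.B.FI (fixI fixI_top mem_fixI)

section arith

variable {k L E : Type} [Field k] [NumberField k] [Field L] [Field E]
  [Algebra k L] [Algebra k E] [Algebra L E]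
  [IsScalarTower k L E] [NeZero (2 : E)] {ρ σ : E ≃ₐ[k] E} {ρL : L ≃ₐ[k] L} {α : E}
  {a b c : kˣ} {q : Lˣ} (H : Hy ρ σ ρL α a b c q)

include H

/-- **F1a**: the automorphisms of the octonion algebra which fix `i`. -/
theorem autI_memB {g : OctL E a b c ≃ₗ[E] OctL E a b c} (hg : g ∈ GT ρ σ α a b c q)
    (he : g (ep α) = ep α) : g ∈ RsB ρ σ α a b c q := by
  obtain ⟨g0, hg0⟩ := exists_fixI H hg he
  have e1 : (⟨g, hg⟩ : GT ρ σ α a b c q) = extI ρ σ α a b c q g0 := Subtype.ext hg0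
  refine ⟨⟨g, hg⟩, ?_, rfl⟩
  rw [e1]
  change extI ρ σ α a b c q g0 ∈ fresB _
  rw [mem_fresB]
  intro N hN
  have h := B.FI.fixI_topB H.hdiv (N.comap (extI ρ σ α a b c q)) (hN.comap _).normal (hN.comap _)
  have h2 : g0 ∈ N.comap (extI ρ σ α a b c q) := by
    rw [h]
    exact Subgroup.mem_top _
  exact h2

end arith

end Vale.Agent.P011.D4X.H369
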